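import Vale.Agent.P261.H468.K.FinalSH2

/-!
# P261: `π_t L_{K(n)} S` for `n² < 2 (p - 1)`

`p` an odd prime, `n ≥ 1` with `n² < q = 2 (p - 1)`, `L` the `K(n)`-local sphere. Then `π_t L` has
exactly one structure of a `ℤ_p`-module, and:
* `π_t L` is finitely generated unless `t = -1` or `q ∣ t + s` for some `2 ≤ s ≤ n²`;
* `π_0 L ≅ ℤ_p`; `π_{-1} L` is torsion-free, and finitely generated if its rationalization is
  finite-dimensional;
* `π_t L = 0` if `q` divides none of `t, t + 1, …, t + n²`, and if `q ∣ t ≠ 0`;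
* `π_t L` is finite if `q ∣ t + 1 ≠ 0`, and zero if moreover `n ≥ 2`, `t < -1`;
* `p ^ (v_p (t + s) + 1)` kills `π_t L` if `q ∣ t + s ≠ 0`, `0 ≤ s ≤ n²`;
* the homotopy of `L ⊗ C`, `C = S/p`, in the stems `t` with `q ∣ t` or `q ∤ t + s`, `0 ≤ s ≤ n²`.

The statement uses the definitions of `P251/T/Axioms.lean`, `P251/St/Base.lean` and
`P251/St/Chrom.lean` (stable homotopy categories with a suspension spectrum functor, Morava
K-theories, Bousfield localizations).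
-/

open Vale.Agent.P251.St Vale.Agent.P251.St.SHCat

open scoped TensorProduct

namespace Vale.Agent.Results.P261.SparseStems

theorem result : (∃ T : SHCat, Nonempty (Susp T)) ∧
    ∀ (T : SHCat) (S : Susp T) (p n : ℕ) [Fact p.Prime], p ≠ 2 → 1 ≤ n → n * n < 2 * (p - 1) →
    (∃ (K : RingSp T) (L : T.C) (f : Hom T.one L), IsMorava S K p n ∧ IsLoc K.obj f) ∧
    ∀ (K : RingSp T) (L : T.C) (f : Hom T.one L), IsMorava S K p n → IsLoc K.obj f →
      (∀ t : ℤ, Nonempty (Unique (Module ℤ_[p] (Hom (sphere T t) L)))) ∧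
      (∀ t : ℤ, t ≠ -1 →
        (∀ s : ℕ, 2 ≤ s → s ≤ n * n → ¬ (2 * ((p : ℤ) - 1)) ∣ t + (s : ℤ)) →
          ∀ _ : Module ℤ_[p] (Hom (sphere T t) L), Module.Finite ℤ_[p] (Hom (sphere T t) L)) ∧
      Nonempty (Hom (sphere T 0) L ≃+ ℤ_[p]) ∧
      (∀ m : ℕ, m ≠ 0 → ∀ x : Hom (sphere T (-1)) L, m • x = 0 → x = 0) ∧
      (∀ _ : Module ℤ_[p] (Hom (sphere T (-1)) L),
        Module.Finite ℚ_[p] (ℚ_[p] ⊗[ℤ_[p]] Hom (sphere T (-1)) L) →
          Module.Finite ℤ_[p] (Hom (sphere T (-1)) L)) ∧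
      ∀ t : ℤ,
      ((∀ s : ℕ, s ≤ n * n → ¬ (2 * ((p : ℤ) - 1)) ∣ t + (s : ℤ)) →
        ∀ x : Hom (sphere T t) L, x = 0) ∧
      ((2 * ((p : ℤ) - 1)) ∣ t → t ≠ 0 → ∀ x : Hom (sphere T t) L, x = 0) ∧
      ((2 * ((p : ℤ) - 1)) ∣ t + 1 → t ≠ -1 → Finite (Hom (sphere T t) L)) ∧
      ((2 * ((p : ℤ) - 1)) ∣ t + 1 → 2 ≤ n → t < -1 → ∀ x : Hom (sphere T t) L, x = 0) ∧
      (∀ s : ℕ, s ≤ n * n → (2 * ((p : ℤ) - 1)) ∣ t + (s : ℤ) → t + (s : ℤ) ≠ 0 →
        ∀ x : Hom (sphere T t) L, p ^ (padicValInt p (t + (s : ℤ)) + 1) • x = 0) ∧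
      ∀ (C : T.C) (a : Hom T.one C) (b : Hom C (sus T.one)),
        Dist (zmul (p : ℤ) (ident T.one)) a b →
        ((∀ s : ℕ, s ≤ n * n → ¬ (2 * ((p : ℤ) - 1)) ∣ t + (s : ℤ)) →
          ∀ x : Hom (sphere T t) (ten L C), x = 0) ∧
        ((2 * ((p : ℤ) - 1)) ∣ t → Finite (Hom (sphere T t) (ten L C))) ∧
        ((2 * ((p : ℤ) - 1)) ∣ t → 2 ≤ n → t < 0 → ∀ x : Hom (sphere T t) (ten L C), x = 0) ∧
        Nat.card (Hom (sphere T 0) (ten L C)) = p := by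
  refine ⟨nonempty_susp, fun T S p n _ hp hn hsq =>
    ⟨Vale.Agent.P261.exists_morava_loc T S p n hp, fun K L f hK hf =>
      ⟨Vale.Agent.P261.sh_unique T S hn hK hf, Vale.Agent.P261.sh_fg T S hp hn hsq hK hf,
        Vale.Agent.P261.sh_pi_zero T S hp hn hsq hK hf,
        Vale.Agent.P261.sh_neg_one T S hp hn hsq hK hf,
        Vale.Agent.P261.sh_neg_one_fg T S hp hn hsq hK hf, fun t =>
          ⟨Vale.Agent.P261.sh_zero T S hp hn hsq hK hf t,
            Vale.Agent.P261.sh_zero_of_dvd T S hp hn hsq hK hf t,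
            Vale.Agent.P261.sh_finite T S hp hn hsq hK hf t,
            fun ht hn2 h0 => Vale.Agent.P261.sh_neg T S hp hn hsq hK hf hn2 t ht h0,
            fun s hs ht h0 => Vale.Agent.P261.sh_exp T S hp hn hsq hK hf t s hs ht h0,
            fun C a b h => ⟨(Vale.Agent.P261.sh_moore T S hp hn hsq hK hf h t).1,
              (Vale.Agent.P261.sh_moore T S hp hn hsq hK hf h t).2,
              fun ht hn2 h0 => Vale.Agent.P261.sh_moore_neg T S hp hn hsq hK hf hn2 h t ht h0,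
              Vale.Agent.P261.sh_card T S hp hn hsq hK hf h⟩⟩⟩⟩⟩

end Vale.Agent.Results.P261.SparseStems
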